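import Crest.Agent.X212.Sep15.CvD
import Crest.Agent.X212.Pb50.Nk
import Crest.Agent.X212.Sw88.C0
import Crest.Agent.X212.Enw40.Pw

/-!
# Row 212, CV-FC (helper40): the curvature on the cores of a family
-/

set_option autoImplicit false
set_option linter.unusedSectionVars false
noncomputable section
open scoped Manifold ContDiff Topology InnerProductSpace
open MeasureTheory Set Filter Metric

namespace Crest.Agent.X212.Cvf40
open An Sob92 Cyf70 Sw88 Sep15.S Pb50 Prm93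
open Sw (Bg F2 En3 Nk Pz Pc Dt Fam)
open Sw.En3
open M (Mf)
open Nd18 (isOpen_Jv)

variable {κ lam ν : Type} [Fintype κ] [Fintype lam] [Fintype ν] [DecidableEq ν]

section cyl
variable {e : En3 κ lam ν} (he : e.OK) {c : e.ZC} {J : Set ℝ} (hJ : IsOpen J)
  (hc : e.cyl.AdmOn c (univ ×ˢ J))
include he hJ hc

/-- the curvature of a local configuration on a cylinder -/
theorem fc_loc {K : ℝ} (hN : ∀ r y, ‖deriv e.f r • e.ζ y‖ ≤ K ^ 2) (ho : ∀ x, ‖e.cyl.om x‖ ≤ K)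
    {x : e.Y.M × ℝ} (hx : x.2 ∈ J) (hE : ‖e.cyl.eC c x‖ ≤ K) : ‖e.cyl.fc c x‖ ^ 2 ≤
      128 * K ^ 2 + 96 * (K ^ 2 + K) ^ 2 + 12 * ∑ k, (gr (sl c x.2)).a k x.1 ^ 2 +
        8 * (e.w ^ 2 * ‖c.Φ x‖ ^ 4) := by
  obtain ⟨ε, h0, hε⟩ := nhds_basis_closedBall.mem_iff.1 (hJ.mem_nhds hx)
  let k : ContDiffBump x.2 := ⟨ε / 2, ε, by positivity, by linarith⟩
  have k1 : ∀ᶠ y in 𝓝 x, k y.2 = 1 := continuous_snd.continuousAt.eventually k.eventuallyEq_one
  have r := Enw40.fc_le0 he (adm_cut (isOpen_univ.prod hJ) hc (φ := fun y => k y.2)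
    (sm_snd k.contDiff) ((closure_minimal (t := univ ×ˢ closedBall x.2 ε) (fun y hy => ⟨trivial,
      ball_subset_closedBall (k.support_eq ▸ hy : y.2 ∈ ball x.2 k.rOut)⟩)
      (isClosed_univ.prod isClosed_closedBall)).trans (prod_mono_right hε))) hN ho x
    (by rwa [eC_congr (cut_a k1) (cut_Φ k1)])
  rwa [fc_congr (cut_a k1), (cut_Φ k1).self_of_nhds, show sl (cut (fun y => k y.2) c) x.2 = sl c x.2 by
    simp only [sl, cut, k1.self_of_nhds, one_smul]] at r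

theorem int_gr {S : Set ℝ} (hS : MeasurableSet S) (h : S ⊆ J) :
    ∫⁻ x in univ ×ˢ S, ENNReal.ofReal (12 * ∑ k, (gr (sl c x.2)).a k x.1 ^ 2) ∂e.D.Z.μ ≤
      6 * en c S := by
  change ∫⁻ x in _, _ ∂(e.D.F.μ.prod volume) ≤ _
  rw [← Measure.prod_restrict, Measure.restrict_univ, ← lintegral_prod_swap, en,
    ← lintegral_const_mul' _ _ (by simp)]
  refine (lintegral_prod_le _).trans (setLIntegral_mono' hS fun t ht => ?_)
  have hv := adm_sl hJ hc (h ht)
  have j : Continuous fun y => ∑ k, (gr (sl c t)).a k y ^ 2 :=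
    continuous_finsetSum _ fun k _ => (sm_gr_a he hv k).continuous.pow 2
  simp only [Prod.swap_prod_mk]
  rw [← ofReal_integral_eq_lintegral_ofReal (integrable_Y (j.const_mul 12))
    (.of_forall fun y => by positivity), ← ENNReal.ofReal_ofNat, ← ENNReal.ofReal_mul (by norm_num),
    gn, ip, ← integral_const_mul]
  refine ENNReal.ofReal_le_ofReal (integral_mono (integrable_Y (j.const_mul 12))
    (integrable_Y (continuous_const.mul ((continuous_const.mul (by simpa only [sq] using j)).add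
      (continuous_const.mul ((sm_gr_Φ he hv).continuous.inner (sm_gr_Φ he hv).continuous)))))
    fun y => ?_)
  have := mul_nonneg he.cyl.w (real_inner_self_nonneg (x := (gr (sl c t)).Φ y))
  simp only [sq]
  change 0 ≤ e.w * _ at this
  linarith

end cyl

variable {X : Mf 4} {nc : ℕ}

theorem lint_ψ {e : En3 κ lam ν} {b : Bg X.I X.M κ lam ν nc} (K : Nk e b) {S : Set (e.Y.M × ℝ)}
    (hS : IsOpen S) (hs : S ⊆ K.ψ.source) (f : X.M → ENNReal) :
    ∫⁻ x in K.ψ '' S, f x ∂b.F.μ ≤ ∫⁻ x in S, f (K.ψ x) ∂e.D.Z.μ := by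
  have hO := (K.ψ.isOpen_image_of_subset_source hS hs).measurableSet
  rw [← inter_eq_left.2 (image_subset_iff.2 fun x hx => K.ψ.map_source (hs hx) :
      K.ψ '' _ ⊆ K.ψ.target), ← Measure.restrict_restrict hO, ← K.iso.μ,
    Measure.restrict_map_of_aemeasurable
      (K.ψ.continuousOn.aemeasurable K.ψ.open_source.measurableSet) hO,
    Measure.restrict_restrict' K.ψ.open_source.measurableSet, K.ψ.injOn.preimage_image_inter hs]
  exact lintegral_map_le _ _

variable {d : Dt κ lam ν} {N : Type} [Fintype N] {ty : N → d.𝓔}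

variable (d ty X nc) in
theorem ec : ∃ C : ℝ, ∀ (P : Pc d X nc ty), P.OK → ∀ q c i, ∀ K ∈ P.nk i, P.Small 0 1 q →
    ∀ x ∈ univ ×ˢ K.deep 2, P.bg.EqOn (P.pt q) c {K.ψ x} → (d.e (ty i)).cyl.eD (K.pb c) x =
      (d.e (ty i)).b (nm (sl (K.pb c) x.2)) • (d.e (ty i)).m.ρ none x.1 ((K.pb c).Φ x) ∧
      ‖(d.e (ty i)).cyl.eC (K.pb c) x‖ ≤ C := by
  choose A A0 hA using fun i => hl_le (d.e (ty i))
  refine ⟨∑ i, A i + 1 * (1 + Fintype.card N), fun P hP q c i K hK hq x hx h => ?_⟩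
  have hs := K.mem_src.2 (deep_J K two_pos hx.2)
  rw [← eD_ψ K hs, ← eC_ψ K hs, (h _ rfl).1, (h _ rfl).2]
  refine ⟨(sum_nk hP.toOK hK (K.ψ.map_source hs) (fun _ K' => K'.rad c (K.ψ x))
    fun j K' h => ?_).trans ?_, (norm_add_le _ _).trans (add_le_add ((norm_sum_le _ _).trans
      (Finset.sum_le_sum fun i _ => ?_)) (norm_terms P hq c _))⟩
  · rw [Nk.rad, K'.χ_zero h, zero_mul, zero_smul]
  · rw [Nk.rad, χ_ψ K hx.2, one_mul, K.tm_ψ x hs, K.hρ _ x hs]
    rfl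
  · rcases P.nk i with _ | K
    · simpa using A0 i
    · exact norm_hl K c _ (hA i (hP.en i))

theorem om_le (e : En3 κ lam ν) : ∃ A, e.OK → ∀ x, ‖e.cyl.om x‖ ≤ A := by
  by_cases he : e.OK
  · obtain ⟨C, hC⟩ := he.cyl.com
    exact ⟨_, fun _ => CB_bound (hC.2 0)⟩
  · exact ⟨0, fun h => absurd h he⟩

variable (d ty X nc) in
/-- the curvature is bounded by the energy, up to a constant -/
theorem fc_ean (C w : ℝ) : ∃ B : ℝ, 0 ≤ B ∧ ∀ (P : Pc d X nc ty), P.OK → P.bg.w = w → ∀ q c,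
    P.Small 0 1 q → P.bg.Adm c → (∀ x, ‖c.Φ x‖ ≤ C) → ∀ A, IsClosed A → P.bg.EqOn (P.pt q) c A →
      ∫⁻ x in A, ENNReal.ofReal (‖P.bg.fc c x‖ ^ 2 - B) ∂P.bg.F.μ ≤ 6 * P.ean c := by
  obtain ⟨C₁, h₁⟩ := ec X nc d ty
  choose A A0 hA using fun i => hl_le (d.e (ty i))
  choose O hO using fun i => om_le (d.e (ty i))
  set k := 1 + |C₁| + ∑ i, (A i + |O i|) with hk
  refine ⟨128 * k ^ 2 + 96 * (k ^ 2 + k) ^ 2 + 8 * (w ^ 2 * C ^ 4), by positivity,
    fun P hP hw q c hq hc hC S hS hE => ?_⟩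
  have k0 : ∀ i, A i + |O i| ≤ ∑ i, (A i + |O i|) := fun i => Finset.single_le_sum
    (f := fun i => A i + |O i|) (fun i _ => add_nonneg (A0 i) (abs_nonneg _)) (Finset.mem_univ i)
  refine (lintegral_mono_set (t := P.thick 3 ∪ ⋃ i, (P.nk i).elim ∅ fun K =>
    K.ψ '' (univ ×ˢ K.deep 3) ∩ S) fun x hx => ?_).trans ((lintegral_union_le _ _ _).trans ?_)
  · refine (em _).imp_right fun h => ?_
    simp only [Pz.thick, mem_ofPred_eq, not_forall, not_not] at h
    obtain ⟨i, K, hK, h⟩ := h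
    exact mem_iUnion.2 ⟨i, by rw [Option.mem_def.1 hK]; exact ⟨h, hx⟩⟩
  rw [Pz.ean, mul_add, Finset.mul_sum]
  refine add_le_add ((lintegral_mono fun x => ENNReal.ofReal_le_ofReal ?_).trans
    (le_mul_of_one_le_left' (by norm_num))) ((lintegral_iUnion_le _ _).trans
    ((tsum_fintype _).trans_le (Finset.sum_le_sum fun i _ => ?_)))
  · have := hP.bg.w
    rw [Bg.ed]
    have : 0 ≤ P.bg.w * ∑ i, ‖Wz78.nab X.I P.bg.F.e (P.bg.W c) i c.Φ x‖ ^ 2 := by positivity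
    have : 0 ≤ P.bg.w ^ 2 * ‖c.Φ x‖ ^ 4 := by positivity
    have : 0 ≤ 128 * k ^ 2 + 96 * (k ^ 2 + k) ^ 2 + 8 * (w ^ 2 * C ^ 4) := by positivity
    linarith
  rcases hK : P.nk i with _ | K
  · simp
  have d2 : K.deep 3 ⊆ K.deep 2 := fun t ht =>
    ⟨fun a ha => by
      obtain ⟨p, h, rfl⟩ := Option.mem_map.1 ha
      linarith [ht.1 _ (Option.mem_map.2 ⟨p, h, rfl⟩)], fun a ha => by
      obtain ⟨p, h, rfl⟩ := Option.mem_map.1 ha
      linarith [ht.2 _ (Option.mem_map.2 ⟨p, h, rfl⟩)]⟩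
  simp only [Option.elim_some]
  rw [inter_comm, ← Measure.restrict_restrict hS.measurableSet, ← lintegral_indicator hS.measurableSet]
  refine (lint_ψ K (isOpen_univ.prod isOpen_Jv) (fun x hx => K.mem_src.2
    (deep_J K two_pos (d2 hx.2))) _).trans ((setLIntegral_mono' (MeasurableSet.univ.prod
      isOpen_Jv.measurableSet) fun x hx => ?_).trans ((int_gr (hP.en i) isOpen_Jv (admOn_pb K hc)
      isOpen_Jv.measurableSet fun t ht => deep_J K two_pos (d2 ht)).trans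
      (mul_le_mul_right (lintegral_mono_set d2) _)))
  by_cases m : K.ψ x ∈ S
  · have hJ := deep_J K two_pos (d2 hx.2)
    have b1 := abs_nonneg C₁
    have b2 := A0 i
    have b3 := abs_nonneg (O i)
    have r := fc_loc (K := k) (hP.en i) isOpen_Jv (admOn_pb K hc) (fun r y =>
      (hA i (hP.en i) r y).trans (by nlinarith [k0 i])) (fun x => (hO i (hP.en i) x).trans
      (by linarith [k0 i, le_abs_self (O i)])) hJ ((h₁ P hP q c i K hK hq x ⟨trivial, d2 hx.2⟩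
      fun y hy => hE y (hy ▸ m)).2.trans (by linarith [k0 i, le_abs_self C₁]))
    rw [indicator_of_mem m, fc_ψ K (K.mem_src.2 hJ)]
    have : (d.e (ty i)).w ^ 2 * ‖(K.pb c).Φ x‖ ^ 4 ≤ w ^ 2 * C ^ 4 := by
      rw [← K.hw, hw]
      exact mul_le_mul_of_nonneg_left (pow_le_pow_left₀ (norm_nonneg _) (hC _) 4) (sq_nonneg _)
    exact ENNReal.ofReal_le_ofReal (by linarith)
  · rw [indicator_of_notMem m]; exact zero_le

variable {T : Type} [NormedAddCommGroup T] [NormedSpace ℝ T] [FiniteDimensional ℝ T]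

/-- the measure of the site is dominated by those of the family, on compact sets -/
theorem dens_le {s : Pz X 0 fun i => d.e (ty i)} {𝓕 : Fam s nc T} (h : 𝓕.OK) {t₀ : T}
    (h₀ : t₀ ∈ 𝓕.Q) {A : Set X.M} (hA : IsCompact A) : ∃ δ > 0, ∀ᶠ t in 𝓝 t₀, ∀ f : X.M → ENNReal,
      ENNReal.ofReal δ * ∫⁻ x in A, f x ∂s.bg.F.μ ≤ ∫⁻ x in A, f x ∂(𝓕.P t).bg.F.μ := by
  obtain ⟨g, h1, h2⟩ := h.dens
  obtain ⟨δ, d0, hδ⟩ := hA.exists_forall_le' (Cb.sm (h1.cb _ h₀)).continuous.continuousOn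
    fun x _ => (h2 _ h₀).1 x
  refine ⟨δ / 2, by positivity, ?_⟩
  filter_upwards [h.opn.mem_nhds h₀, Metric.tendsto_nhds.1 ((h1.sm 0).continuousOn.continuousAt
    (h.opn.mem_nhds h₀)) (δ / 2) (by positivity)] with t ht k f
  rw [(h2 t ht).2, restrict_withDensity hA.measurableSet, ← smul_eq_mul, ← lintegral_smul_measure,
    ← withDensity_const]
  refine lintegral_mono' (withDensity_mono ((ae_restrict_mem hA.measurableSet).mono fun x hx =>
    ENNReal.ofReal_le_ofReal ?_)) le_rfl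
  rw [dist_eq_norm] at k
  have := CB_bound ((B.norm_le (by positivity)).1 k.le) x
  rw [map_sub, fn_toB (h1.cb t ht), fn_toB (h1.cb _ h₀)] at this
  linarith [hδ x hx, (abs_le.1 this).1, show (g t - g t₀) x = g t x - g t₀ x from rfl]

variable (d ty X nc T) in
/-- **CV-FC** -/
theorem fcStmt : FcStmt d ty X nc T := by
  refine ⟨fun s 𝓕 h t₀ h₀ C r => ?_, ec X nc d ty⟩
  obtain ⟨B, B0, hB⟩ := fc_ean X nc d ty C s.bg.w
  obtain ⟨δ, d0, hδ⟩ := dens_le h h₀ (h.site.cpt r)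
  refine ⟨B * s.bg.F.μ.real (s.core r) + δ⁻¹ * (6 * C), ?_⟩
  filter_upwards [h.opn.mem_nhds h₀, hδ] with t ht k q c hq hc hC hE hq'
  obtain ⟨x₀⟩ := (h.site.con).toNonempty
  have C0 := (norm_nonneg _).trans (hC x₀)
  refine (lintegral_mono (g := fun x => ENNReal.ofReal B +
    ENNReal.ofReal (‖(𝓕.P t).bg.fc c x‖ ^ 2 - B)) fun x => ?_).trans ?_
  · rw [← ofReal_norm, ← ENNReal.ofReal_pow (norm_nonneg _)]
    exact (ENNReal.ofReal_le_ofReal (by linarith)).trans ENNReal.ofReal_add_le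
  have m := (h.site.cpt r).measure_lt_top (μ := s.bg.F.μ)
  have l := ((k _).trans (hB _ (h.ok t ht) (h.w t ht) q c hq hc hC _ (h.site.cpt r).isClosed
    hq')).trans (mul_le_mul_right hE 6)
  rw [lintegral_add_left measurable_const, setLIntegral_const, ← ofReal_measureReal m.ne,
    ← ENNReal.ofReal_mul B0, ENNReal.ofReal_add (by positivity) (by positivity),
    ENNReal.ofReal_mul (p := δ⁻¹) (by positivity), ENNReal.ofReal_inv_of_pos d0,
    ENNReal.ofReal_mul (p := 6) (by norm_num), ENNReal.ofReal_ofNat]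
  exact add_le_add_right ((ENNReal.mul_le_iff_le_inv (by simpa) (by simp)).1 l) _

end Crest.Agent.X212.Cvf40
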